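/-
S0351 char p stratum, shared setup (math note section 2).
-/
import Crest.Agent.Lib.LTSkel.CharPMain

set_option autoImplicit false

open Crest.LubinTate

namespace Crest.Agent.LTSkel

variable {p : ℕ} [Fact p.Prime] {n k : ℕ}
variable {R : Type} [NontriviallyNormedField R] [IsUltrametricDist R] [CompleteSpace R] [IsAlgClosed R]
  [CharP R p] [Algebra (GaloisField p n) R]

/-- The formal data of the stratum (everything except the point). -/
structure PData (p : ℕ) [Fact p.Prime] (n k : ℕ) where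
  hk : 1 ≤ k
  hkn : k < n
  HW : FormalGroup (AA p n k)
  comm : HW.IsComm
  hp : mulSeries HW p = fgSumFin HW (fun j : Fin (n - k + 1) =>
        PowerSeries.C (wA p n k j) * PowerSeries.X ^ (p ^ (k + (j : ℕ))))
  Γ : FormalGroup (GaloisField p n)
  hΓ : HW.map (MvPowerSeries.constantCoeff (σ := Fin (n - k))) = Γ
  hΓC : ∀ c : GaloisField p n, IsFGHom Γ Γ (PowerSeries.C c * PowerSeries.X)
  hΓF : IsFGHom Γ Γ (PowerSeries.X ^ p)

/-- The law at a point. -/
noncomputable def PData.HAt (D : PData p n k) (ξ : BallPt (Fin (n - k)) R) : FormalGroup R :=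
  D.HW.map (evA ξ)

/-- `Γ` with coefficients in `R`. -/
noncomputable def PData.ΓR (D : PData p n k) : FormalGroup R :=
  D.Γ.map (algebraMap (GaloisField p n) R)

/-- `Γ` as the law at the point `0`. -/
theorem PData.HAt_zero (D : PData p n k) : D.HAt (R := R) ⟨fun _ => 0, by simp⟩ = D.ΓR := sorry

theorem PData.bdd_HAt (D : PData p n k) (ξ : BallPt (Fin (n - k)) R) :
    Bdd (D.HAt ξ).toPowerSeries := sorry
theorem PData.bdd_ΓR (D : PData p n k) : Bdd (D.ΓR (R := R)).toPowerSeries := sorry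

/-- elements of `K` have norm `≤ 1` (`= 1` if nonzero). -/
theorem norm_algebraMap_K (c : GaloisField p n) (hc : c ≠ 0) :
    ‖algebraMap (GaloisField p n) R c‖ = 1 := sorry

/-- `p^N`-th root in the perfect field `R`. -/
noncomputable def pRoot (N : ℕ) (y : R) : R :=
  ((frobeniusEquiv R p).symm)^[N] y

theorem pRoot_pow (N : ℕ) (y : R) : (pRoot (p := p) N y) ^ (p ^ N) = y := sorry
theorem pow_pRoot (N : ℕ) (y : R) : pRoot (p := p) N (y ^ (p ^ N)) = y := sorry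
theorem norm_pRoot (N : ℕ) (y : R) : ‖pRoot (p := p) N y‖ ^ (p ^ N) = ‖y‖ := sorry

/-- `H_w(X)`: values of `[m]`. -/
noncomputable def PData.mulAt (D : PData p n k) (ξ : BallPt (Fin (n - k)) R) (m : ℕ) (x : R) : R :=
  ev1 (mulSeries (D.HAt ξ) m) x

/-- `[p]` on points: `[p]x = ∑^H_j w_j x^{p^{k+j}}`, and the estimates it implies. -/
theorem PData.mulAt_p_sub_le (D : PData p n k) (ξ : BallPt (Fin (n - k)) R) {x x' : R}
    (hx : ‖x‖ < 1) (hx' : ‖x'‖ < 1) :
    ‖D.mulAt ξ p x - D.mulAt ξ p x'‖ ≤ ‖x - x'‖ ^ (p ^ k) := sorry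
theorem PData.norm_mulAt_p_le (D : PData p n k) (ξ : BallPt (Fin (n - k)) R) {x : R}
    (hx : ‖x‖ < 1) : ‖D.mulAt ξ p x‖ ≤ ‖x‖ ^ (p ^ k) := sorry
/-- `[p]x ≡ x^q` up to `ρ`, if `ρ ≥ ‖ξ j‖`. -/
theorem PData.mulAt_p_sub_pow_le (D : PData p n k) (ξ : BallPt (Fin (n - k)) R) {x : R} {ρ : ℝ}
    (hρ : ∀ j, ‖ξ.1 j‖ ≤ ρ) (hρ1 : ρ < 1) (hx : ‖x‖ < 1) :
    ‖D.mulAt ξ p x - x ^ (p ^ n)‖ ≤ ρ := sorry

end Crest.Agent.LTSkel
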