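/-
S0351 MODULE A6: linearization of `H_ξ` over `R` (math note (2d)).
-/
import Crest.Agent.Lib.LTSkel.CharP.Setup

set_option autoImplicit false

open Crest.LubinTate Filter Topology

namespace Crest.Agent.LTSkel

variable {p : ℕ} [Fact p.Prime] {n k : ℕ}
variable {R : Type} [NontriviallyNormedField R] [IsUltrametricDist R] [CompleteSpace R] [IsAlgClosed R]
  [CharP R p] [Algebra (GaloisField p n) R]

/-- `ι : H_ξ → Γ'` with `[p]_{Γ'} = X^{p^k}`; `Γ'` has coefficients fixed by `x ↦ x^{p^k}`. -/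
structure PData.Linearization (D : PData p n k) (ξ : BallPt (Fin (n - k)) R) where
  ι : PowerSeries R
  c1 : R
  Γ' : FormalGroup R
  comm : Γ'.IsComm
  coeff0 : PowerSeries.coeff 0 ι = 0
  coeff1 : PowerSeries.coeff 1 ι = c1
  c1_pow : c1 ^ (p ^ k - 1) = ξ.1 ⟨0, by have := D.hkn; omega⟩
  E : ℝ
  one_le_E : 1 ≤ E
  /-- coefficient growth: `ι` converges on a small disc -/
  growth : ∀ j, 1 ≤ j → ‖PowerSeries.coeff j ι‖ ≤ ‖c1‖ ^ j * E ^ (j - 1)
  isHom : IsFGHom (D.HAt ξ) Γ' ι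
  fix : ∀ m, (MvPowerSeries.coeff m Γ'.toPowerSeries) ^ (p ^ k) = MvPowerSeries.coeff m Γ'.toPowerSeries
  pSeries : mulSeries Γ' p = PowerSeries.X ^ (p ^ k)

theorem PData.exists_linearization (D : PData p n k) (ξ : BallPt (Fin (n - k)) R)
    (hξ0 : ξ.1 ⟨0, by have := D.hkn; omega⟩ ≠ 0) : Nonempty (D.Linearization ξ) := sorry

section
variable {D : PData p n k} {ξ : BallPt (Fin (n - k)) R} (L : D.Linearization ξ)

/-- radius of convergence used for `ι`. -/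
noncomputable def PData.Linearization.rad : ℝ := (‖L.c1‖ * L.E)⁻¹

theorem PData.Linearization.bdd_Γ' : Bdd L.Γ'.toPowerSeries := sorry
theorem PData.Linearization.summable {x : R} (hx : ‖x‖ < L.rad) :
    Summable (fun j => PowerSeries.coeff j L.ι * x ^ j) := sorry
theorem PData.Linearization.norm_ev {x : R} (hx : ‖x‖ < L.rad) : ‖ev1 L.ι x‖ = ‖L.c1‖ * ‖x‖ := sorry
/-- second order expansion -/
theorem PData.Linearization.norm_ev_sub {x : R} (hx : ‖x‖ < L.rad) :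
    ‖ev1 L.ι x - L.c1 * x‖ ≤ ‖L.c1‖ ^ 2 * L.E * ‖x‖ ^ 2 := sorry
theorem PData.Linearization.ev_padd {x y : R} (hx : ‖x‖ < L.rad) (hy : ‖y‖ < L.rad) (hx1 : ‖x‖ < 1)
    (hy1 : ‖y‖ < 1) :
    ev1 L.ι (padd (D.HAt ξ) x y) = padd L.Γ' (ev1 L.ι x) (ev1 L.ι y) := sorry
theorem PData.Linearization.ev_mulP {x : R} (hx : ‖x‖ < L.rad) (hx1 : ‖x‖ < 1) :
    ev1 L.ι (D.mulAt ξ p x) = (ev1 L.ι x) ^ (p ^ k) := sorry

end

end Crest.Agent.LTSkel
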