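/-
S0351 MODULE A2.  The map `Ψ_w : Γ(m_R) → H_w(m_R)` (math note (2a)).
-/
import Crest.Agent.Lib.LTSkel.CharP.Setup

set_option autoImplicit false

open Crest.LubinTate Filter Topology

namespace Crest.Agent.LTSkel

variable {p : ℕ} [Fact p.Prime] {n k : ℕ}
variable {R : Type} [NontriviallyNormedField R] [IsUltrametricDist R] [CompleteSpace R] [IsAlgClosed R]
  [CharP R p] [Algebra (GaloisField p n) R]
variable (D : PData p n k) (ξ : BallPt (Fin (n - k)) R)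

/-- `Ψ_ξ(y) = lim_N [p^N]_{H_ξ} (y^{q^{-N}})`. -/
noncomputable def PData.Psi (y : R) : R :=
  limUnder atTop (fun N : ℕ => D.mulAt ξ (p ^ N) (pRoot (p := p) (n * N) y))

theorem PData.tendsto_Psi {y : R} (hy : ‖y‖ < 1) :
    Tendsto (fun N : ℕ => D.mulAt ξ (p ^ N) (pRoot (p := p) (n * N) y)) atTop (𝓝 (D.Psi ξ y)) := sorry

theorem PData.norm_Psi_lt {y : R} (hy : ‖y‖ < 1) : ‖D.Psi ξ y‖ < 1 := sorry

/-- `‖Ψ y - y‖ ≤ ρ`. -/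
theorem PData.norm_Psi_sub_le {y : R} (hy : ‖y‖ < 1) {ρ : ℝ} (hρ : ∀ j, ‖ξ.1 j‖ ≤ ρ) (hρ1 : ρ < 1) :
    ‖D.Psi ξ y - y‖ ≤ ρ := sorry

/-- additivity -/
theorem PData.Psi_padd {y y' : R} (hy : ‖y‖ < 1) (hy' : ‖y'‖ < 1) :
    D.Psi ξ (padd D.ΓR y y') = padd (D.HAt ξ) (D.Psi ξ y) (D.Psi ξ y') := sorry

/-- `Ψ(y^q) = [p] Ψ(y)`. -/
theorem PData.Psi_pow_q {y : R} (hy : ‖y‖ < 1) :
    D.Psi ξ (y ^ (p ^ n)) = D.mulAt ξ p (D.Psi ξ y) := sorry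

/-- Equivariance: `θ : H' → H`, `θ ≡ a` up to `ρ` ⟹ `θ Ψ' = Ψ a`. -/
theorem PData.ev1_theta_Psi (ξ' : BallPt (Fin (n - k)) R) {θ : PowerSeries R} (hθb : Bdd1 θ)
    (hθ : IsFGHom (D.HAt ξ') (D.HAt ξ) θ) {a : PowerSeries (GaloisField p n)} {ρ : ℝ} (hρ1 : ρ < 1)
    (hρ : ∀ j, ‖PowerSeries.coeff j θ - algebraMap (GaloisField p n) R (PowerSeries.coeff j a)‖ ≤ ρ)
    (hρξ : ∀ j, ‖ξ.1 j‖ ≤ ρ) (hρξ' : ∀ j, ‖ξ'.1 j‖ ≤ ρ)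
    (ha0 : PowerSeries.constantCoeff a = 0) {y : R} (hy : ‖y‖ < 1) :
    ev1 θ (D.Psi ξ' y) =
      D.Psi ξ (ev1 (PowerSeries.map (algebraMap (GaloisField p n) R) a) y) := sorry

end Crest.Agent.LTSkel
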