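/-
S0351 MODULE A3/A4: tropical hull and additive expansion (math note (2b) first half, (2c)).
INTERFACE for Lemma R.
-/
import Crest.Agent.Lib.LTSkel.CharP.Psi

set_option autoImplicit false

open Crest.LubinTate Filter Topology

namespace Crest.Agent.LTSkel

variable {p : ℕ} [Fact p.Prime] {n k : ℕ}
variable {R : Type} [NontriviallyNormedField R] [IsUltrametricDist R] [CompleteSpace R] [IsAlgClosed R]
  [CharP R p] [Algebra (GaloisField p n) R]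
variable (D : PData p n k) (ξ : BallPt (Fin (n - k)) R)

/-- valuation -/
noncomputable def vl (x : R) : ℝ := - Real.log ‖x‖

/-- `Π_m`: `Π_0 = 1`, `Π_m = ∑_{i≥0} A_m^{q^i}`, `A_m = ∑_{δ=1}^{min(r,m)} w_{r-δ} Π_{m-δ}^{p^{n-δ}}`. -/
noncomputable def PData.Pi (D : PData p n k) (ξ : BallPt (Fin (n - k)) R) : ℕ → R := sorry

/-- the function `Y_H` of the note; junk outside `x > 0`. -/
noncomputable def PData.YH (D : PData p n k) (ξ : BallPt (Fin (n - k)) R) (x : ℝ) : ℝ := sorry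

/-- `Ξ₀(y) = ∑_N Π_N y^{p^{-N}}`. -/
noncomputable def PData.Xi (D : PData p n k) (ξ : BallPt (Fin (n - k)) R) (y : R) : R := ∑' N : ℕ, D.Pi ξ N * pRoot (p := p) N y

variable (hξ0 : ξ.1 ⟨0, by have := D.hkn; omega⟩ ≠ 0)

theorem PData.Pi_zero : D.Pi ξ 0 = 1 := sorry
theorem PData.norm_Pi_le (N : ℕ) : ‖D.Pi ξ N‖ ≤ 1 := sorry
/-- relation used for `Xi(y)` convergence -/
theorem PData.summable_Xi {y : R} (hy : ‖y‖ < 1) :
    Summable (fun N : ℕ => D.Pi ξ N * pRoot (p := p) N y) := sorry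

/-- (Ya) lines lie above the hull. -/
theorem PData.line_ge (N : ℕ) {x : ℝ} (hx : 0 < x) :
    ‖D.Pi ξ N‖ * Real.exp (- (x / (p : ℝ) ^ N)) ≤ Real.exp (- D.YH ξ x) := sorry
/-- (Yb) the hull is attained by a true line.  -/
theorem PData.line_attained {x : ℝ} (hx : 0 < x) :
    ∃ N : ℕ, ‖D.Pi ξ N‖ * Real.exp (- (x / (p : ℝ) ^ N)) = Real.exp (- D.YH ξ x) := sorry
/-- (Yc) `Ψ` versus `Ξ₀`. -/
theorem PData.norm_Psi_sub_Xi_le {y : R} (hy : ‖y‖ < 1) (hy0 : y ≠ 0) :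
    ‖D.Psi ξ y - D.Xi ξ y‖ ≤ Real.exp (- (2 * D.YH ξ (vl y))) := sorry
/-- (Yd) homogeneity for large `x`; `γ₀ = v(ξ₀)/(p^k-1)`. -/
theorem PData.YH_homog : ∃ xc : ℝ, 0 < xc ∧ ∀ x, xc ≤ x →
    D.YH ξ ((p : ℝ) ^ n * x) + vl (ξ.1 ⟨0, by have := D.hkn; omega⟩) / ((p : ℝ) ^ k - 1) =
      (p : ℝ) ^ k * (D.YH ξ x + vl (ξ.1 ⟨0, by have := D.hkn; omega⟩) / ((p : ℝ) ^ k - 1)) := sorry
/-- (Ye) -/
theorem PData.YH_strictMono {x x' : ℝ} (hx : 0 < x) (hxx' : x < x') : D.YH ξ x < D.YH ξ x' := sorry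
theorem PData.YH_pos {x : ℝ} (hx : 0 < x) : 0 < D.YH ξ x := sorry
theorem PData.YH_tendsto : Tendsto (D.YH ξ) atTop atTop := sorry

/-- `‖Ψ y‖ ≤ exp(-Y_H(v y))`. -/
theorem PData.norm_Psi_le {y : R} (hy : ‖y‖ < 1) (hy0 : y ≠ 0) :
    ‖D.Psi ξ y‖ ≤ Real.exp (- D.YH ξ (vl y)) := sorry

end Crest.Agent.LTSkel
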