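/-
S0351 MODULE A5: torsion, the lattice `T`, orthogonal `p`-basis (math note (2b)).
-/
import Crest.Agent.Lib.LTSkel.CharP.Hull

set_option autoImplicit false

open Crest.LubinTate Filter Topology

namespace Crest.Agent.LTSkel

variable {p : ℕ} [Fact p.Prime] {n k : ℕ}
variable {R : Type} [NontriviallyNormedField R] [IsUltrametricDist R] [CompleteSpace R] [IsAlgClosed R]
  [CharP R p] [Algebra (GaloisField p n) R]
variable (D : PData p n k) (ξ : BallPt (Fin (n - k)) R)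

/-- `n`-fold integer multiple under `Γ`, i.e. `[m]_Γ(y)` -/
noncomputable def PData.mulΓ (m : ℕ) (y : R) : R := ev1 (mulSeries (D.ΓR (R := R)) m) y

/-- The orthogonal `p`-basis of `T = ker Ψ_ξ`.  (z_i) with:
 * `Ψ(z_i) = 0`, `0 < ‖z_i‖ < 1`,
 * `t_i = Ψ(z_i^{1/q})` are `F_p`-independent in `H[p]`: any `∑^H [m_i] t_i` with `m_i` not all `≡ 0 mod p` is nonzero;
 * orthogonality: `‖∑^Γ [m_i] z_i‖ = max_i ‖[m_i] z_i‖` for all `m : Fin r → ℕ`. -/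
structure PData.IsOrthBasis (z : Fin (n - k) → R) : Prop where
  pos : ∀ i, z i ≠ 0
  lt : ∀ i, ‖z i‖ < 1
  ker : ∀ i, D.Psi ξ (z i) = 0
  indep : ∀ m : Fin (n - k) → ℕ, (∃ i, ¬ (p ∣ m i)) →
    D.Psi ξ (pRoot (p := p) n (Fin.foldr _ (fun i acc => padd D.ΓR (D.mulΓ (m i) (z i)) acc) 0)) ≠ 0
  orth : ∀ m : Fin (n - k) → ℕ,
    ‖Fin.foldr _ (fun i acc => padd D.ΓR (D.mulΓ (m i) (z i)) acc) (0 : R)‖ =
      Finset.univ.sup' (by have := D.hkn; exact ⟨⟨0, by omega⟩, Finset.mem_univ _⟩) (fun i => ‖D.mulΓ (m i) (z i)‖)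

theorem PData.exists_orthBasis (hξ0 : ξ.1 ⟨0, by have := D.hkn; omega⟩ ≠ 0) :
    ∃ z, D.IsOrthBasis ξ z := sorry

end Crest.Agent.LTSkel
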