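/-
S0351 MODULE A7: LEMMA R (math note (2h)): no Hom relation between the `l_i(π)`.
-/
import Crest.Agent.Lib.LTSkel.CharP.Torsion
import Crest.Agent.Lib.LTSkel.CharP.Iota

set_option autoImplicit false

open Crest.LubinTate Filter Topology

namespace Crest.Agent.LTSkel

variable {p : ℕ} [Fact p.Prime] {n k : ℕ}
variable {R : Type} [NontriviallyNormedField R] [IsUltrametricDist R] [CompleteSpace R] [IsAlgClosed R]
  [CharP R p] [Algebra (GaloisField p n) R]
variable {D : PData p n k} {ξ : BallPt (Fin (n - k)) R} (L : D.Linearization ξ)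

/-- `l_i(π) = ι(Ψ(π(z_i)))`. -/
noncomputable def PData.Linearization.lv (z : Fin (n - k) → R) (i : Fin (n - k))
    (π : PowerSeries (GaloisField p n)) : R :=
  ev1 L.ι (D.Psi ξ (ev1 (PowerSeries.map (algebraMap (GaloisField p n) R) π) (z i)))

/-- **Lemma R.**  `i₀ ∉ S`, `g b` endomorphisms of `Γ'`. -/
theorem lemmaR (hξ0 : ξ.1 ⟨0, by have := D.hkn; omega⟩ ≠ 0) {z : Fin (n - k) → R}
    (hz : D.IsOrthBasis ξ z) (M0 : ℕ) (i0 : Fin (n - k)) (S : List (Fin (n - k))) (hS : S.Nodup)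
    (hi0 : i0 ∉ S) (g : Fin (n - k) → PowerSeries R) (hg : ∀ b, IsFGHom L.Γ' L.Γ' (g b))
    (hgfix : ∀ b j, (PowerSeries.coeff j (g b)) ^ (p ^ k) = PowerSeries.coeff j (g b)) :
    ¬ ∀ π, IsFGHom D.Γ D.Γ π → (∀ i < M0, PowerSeries.coeff i π = 0) →
      L.lv z i0 π = S.foldr (fun b acc => padd L.Γ' (ev1 (g b) (L.lv z b π)) acc) 0 := sorry

end Crest.Agent.LTSkel
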