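/-
S0351 MODULE A8/A9: analytic chart and asymptotic polynomial relations (math note (2e)).
-/
import Crest.Agent.Lib.LTSkel.CharP.Torsion
import Crest.Agent.Lib.LTSkel.CharP.LemmaR

set_option autoImplicit false

open Crest.LubinTate Filter Topology

namespace Crest.Agent.LTSkel

variable {p : ℕ} [Fact p.Prime] {n k : ℕ}
variable {R : Type} [NontriviallyNormedField R] [IsUltrametricDist R] [CompleteSpace R] [IsAlgClosed R]
  [CharP R p] [Algebra (GaloisField p n) R]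
variable (D : PData p n k) (ξ : BallPt (Fin (n - k)) R)

/-- `sup` norm on `R^r` -/
noncomputable def supNorm {σ : Type*} [Fintype σ] (x : σ → R) : ℝ := ⨆ i, ‖x i‖

/-- Taylor polynomials of `g_z(w') = Ψ_{w'}(z)` at `ξ`, with linear part `(d_m g_w)(t^{p^k})`. -/
theorem PData.exists_chart_poly {z : Fin (n - k) → R} (hz : D.IsOrthBasis ξ z)
    (hξ0 : ξ.1 ⟨0, by have := D.hkn; omega⟩ ≠ 0) :
    ∃ J : Matrix (Fin (n - k)) (Fin (n - k)) R, IsUnit J.det ∧ ∀ B : ℕ,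
      ∃ T : Fin (n - k) → MvPolynomial (Fin (n - k)) R,
        (∀ i, MvPolynomial.coeff 0 (T i) = 0) ∧
        (∀ i m, MvPolynomial.coeff (Finsupp.single m 1) (T i) = J i m) ∧
        (∀ i, (T i).totalDegree ≤ B) ∧
        ∀ (w' : BallPt (Fin (n - k)) R) (hw' : ∀ j, ‖w'.1 j - ξ.1 j‖ < 1) (i : Fin (n - k)),
          ‖D.Psi w' (z i) - MvPolynomial.eval (fun j => w'.1 j - ξ.1 j) (T i)‖ ≤
            (supNorm (fun j => w'.1 j - ξ.1 j)) ^ (B + 1) := sorry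

/-- The polynomials `P_B`.  Orbit hypotheses as in `charP_analysis`. -/
theorem PData.exists_asymp_poly (L : D.Linearization ξ)
    {z : Fin (n - k) → R} (hz : D.IsOrthBasis ξ z)
    (hξ0 : ξ.1 ⟨0, by have := D.hkn; omega⟩ ≠ 0)
    (f : AA p n k) (hf : f ≠ 0)
    (M0 : ℕ) (w : PowerSeries (GaloisField p n) → BallPt (Fin (n - k)) R)
    (θ : PowerSeries (GaloisField p n) → PowerSeries R) (ρ : ℝ) (hρ : ρ < 1)
    (hfam : ∀ π, IsFGHom D.Γ D.Γ π → (∀ i < M0, PowerSeries.coeff i π = 0) →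
      Bdd1 (θ π) ∧ IsFGHom (D.HAt (w π)) (D.HAt ξ) (θ π) ∧
      (∀ j, ‖PowerSeries.coeff j (θ π) -
        algebraMap (GaloisField p n) R (PowerSeries.coeff j (aOf D.Γ π))‖ ≤ ρ) ∧
      evA (w π) f = 0)
    (hcont : ∀ ε : ℝ, 0 < ε → ∀ B : ℕ, ∃ M, ∀ π, IsFGHom D.Γ D.Γ π → (∀ i < M, PowerSeries.coeff i π = 0) →
      (∀ j, ‖(w π).1 j - ξ.1 j‖ < ε) ∧
      ∀ j ≤ B, ‖PowerSeries.coeff j (θ π) - PowerSeries.coeff j (PowerSeries.X : PowerSeries R)‖ < ε) :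
    ∃ d : ℕ, ∀ B : ℕ, ∃ P : MvPolynomial (Fin (n - k)) R, P.totalDegree ≤ B ∧
      (∃ m : Fin (n - k) →₀ ℕ, m.degree ≤ d ∧ MvPolynomial.coeff m P ≠ 0) ∧
      ∃ M C, ∀ π, IsFGHom D.Γ D.Γ π → (∀ i < M, PowerSeries.coeff i π = 0) →
        ‖MvPolynomial.eval (fun i => L.lv z i π) P‖ ≤ C * (supNorm (fun i => L.lv z i π)) ^ (B + 1) := sorry

end Crest.Agent.LTSkel
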