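/-
S0351 MODULES A10/A11: Frobenius descent, exactness, closure (math note (2f),(2g)).
Abstract: no `H`, no `Ψ`.  A group `L` of parameters mapping additively to `Γ'(m_R)^σ`.
-/
import Crest.Agent.Lib.LTSkel.Eval

set_option autoImplicit false

open Crest.LubinTate Filter Topology

namespace Crest.Agent.LTSkel

variable {R : Type} [NontriviallyNormedField R] [IsUltrametricDist R] [CompleteSpace R] [IsAlgClosed R]

/-- Parameters. `l i π ∈ m_R` additive for `Γ'`, `l i (pm π) = (l i π)^Q`. -/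
structure GroupData (p : ℕ) [Fact p.Prime] (R : Type) [NontriviallyNormedField R] (Q : ℕ) (ι : Type) where
  Γ' : FormalGroup R
  comm : Γ'.IsComm
  fix : ∀ m, (MvPowerSeries.coeff m Γ'.toPowerSeries) ^ Q = MvPowerSeries.coeff m Γ'.toPowerSeries
  pSeries : mulSeries Γ' p = PowerSeries.X ^ Q
  L : Type
  add : L → L → L
  zero : L
  pm : L → L
  /-- filtration of small parameters -/
  small : ℕ → Set L
  small_anti : Antitone small
  pm_small : ∀ M π, π ∈ small M → pm π ∈ small (M + 1)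
  pm_small0 : ∀ π, pm π ∈ small 1 ∨ True
  l : ι → L → R
  l_lt : ∀ i π, ‖l i π‖ < 1
  l_add : ∀ i π π', l i (add π π') = padd Γ' (l i π) (l i π')
  l_zero : ∀ i, l i zero = 0
  l_pm : ∀ i π, l i (pm π) = (l i π) ^ Q
  /-- any parameter is eventually small under `pm` -/
  pm_eventually : ∀ π M, ∃ t, (pm^[t]) π ∈ small M

variable {p : ℕ} [Fact p.Prime] [CharP R p] {Q : ℕ} {ι : Type} [Fintype ι] [DecidableEq ι]

/-- `sup_i ‖l i π‖` -/
noncomputable def GroupData.size (G : GroupData p R Q ι) (π : G.L) : ℝ :=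
  ⨆ i, ‖G.l i π‖

/-- asymptotic vanishing to order `B` -/
def GroupData.AsympVanish (G : GroupData p R Q ι) (P : MvPolynomial ι R) (B : ℕ) : Prop :=
  ∃ M C, ∀ π ∈ G.small M,
    ‖MvPolynomial.eval (fun i => G.l i π) P‖ ≤ C * (G.size π) ^ (B + 1)

/-- Descent and exactness (2f). `Q = p^k`, `k ≥ 1`. -/
theorem GroupData.descent (G : GroupData p R Q ι) (k : ℕ) (hk : 1 ≤ k) (hQ : Q = p ^ k) (d : ℕ)
    (h : ∀ B, ∃ P : MvPolynomial ι R, P.totalDegree ≤ B ∧ G.AsympVanish P B ∧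
      ∃ m : ι →₀ ℕ, m.degree ≤ d ∧ MvPolynomial.coeff m P ≠ 0) :
    ∃ F : MvPowerSeries ι R, (∀ m, (MvPowerSeries.coeff m F) ^ Q = MvPowerSeries.coeff m F) ∧
      (∃ m : ι →₀ ℕ, m.degree ≤ d ∧ MvPowerSeries.coeff m F ≠ 0) ∧
      ∀ π, ev F (fun i => G.l i π) = 0 := sorry

/-- Closure (2g): a polynomially-asymptotic relation in all variables produces a Hom relation among
a subset of the coordinates. -/
theorem GroupData.exists_relation (G : GroupData p R Q ι) (k : ℕ) (hk : 1 ≤ k) (hQ : Q = p ^ k) (d : ℕ)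
    (h : ∀ B, ∃ P : MvPolynomial ι R, P.totalDegree ≤ B ∧ G.AsympVanish P B ∧
      ∃ m : ι →₀ ℕ, m.degree ≤ d ∧ MvPolynomial.coeff m P ≠ 0) :
    ∃ (i0 : ι) (S : List ι) (g : ι → PowerSeries R), S.Nodup ∧ i0 ∉ S ∧
      (∀ b, IsFGHom G.Γ' G.Γ' (g b)) ∧
      (∀ b j, (PowerSeries.coeff j (g b)) ^ Q = PowerSeries.coeff j (g b)) ∧
      ∀ π, G.l i0 π = S.foldr (fun b acc => padd G.Γ' (ev1 (g b) (G.l b π)) acc) 0 := sorry

end Crest.Agent.LTSkel
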